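import Vale.Agent.P042.Curve.Rational.Setup

/-!
Counting pairs of a cycle and a function through it, in two ways: the class sums.
-/

open Finset Polynomial

namespace Vale.Agent.P042.Curve

open Vale.Agent.P042.Upper

noncomputable section

variable {p : ℕ} [Fact p.Prime] (A : Comp p)

/-- The conclusion of `card_rat_through`, for a threshold `G`. -/
def Through (G : ℕ) : Prop := ∀ (M : ℕ) (E : Multiset (Kbar p × Kbar p)), IsCycle A E →
  Multiset.card E + G ≤ edeg A * M →
  ∀ (Q : (idx (edeg A) M → ZMod p) → Prop) [DecidablePred Q]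
    [DecidablePred fun v => rat v ∈ Wsp A M E ∅ ∧ Q v],
    (∀ v w, SameBoundary A M (rat v) (rat w) → Q v → Q w) →
    p ^ Multiset.card E * (univ.filter fun v => rat v ∈ Wsp A M E ∅ ∧ Q v).card =
      (univ.filter fun v => Q v).card

open scoped Classical in
/-- The valid functions of degree `M` through a cycle. -/
def funsThrough (M : ℕ) (E : Multiset (Kbar p × Kbar p)) : Finset (idx (edeg A) M → ZMod p) :=
  univ.filter fun v => rat v ∈ Wsp A M E ∅ ∧ Valid A M v

open scoped Classical in
/-- All valid functions of degree `M`. -/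
def funsAll (M : ℕ) : Finset (idx (edeg A) M → ZMod p) := univ.filter fun v => Valid A M v

/-- The character of a cycle. -/
def chi (ψ : AddChar (ZMod p) ℂ) (g : (ZMod p)[X]) (E : Multiset (Kbar p × Kbar p)) : ℂ :=
  WeilProof.chi p ψ g (E.map Prod.fst)

/-- The class sums. -/
def clsum (ψ : AddChar (ZMod p) ℂ) (g : (ZMod p)[X]) (d : ℕ) : ℂ := ∑ E ∈ cycles A d, chi ψ g E

variable {A} {G : ℕ} (ψ : AddChar (ZMod p) ℂ) (g : (ZMod p)[X])

lemma fst_invariant {E : Multiset (Kbar p × Kbar p)} (hE : E.map frP = E) :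
    (E.map Prod.fst).map (WeilProof.fr p) = E.map Prod.fst := by
  conv_rhs => rw [← hE]
  simp [Multiset.map_map, Function.comp_def, frP]

lemma chi_add {E F : Multiset (Kbar p × Kbar p)} (hE : E.map frP = E) (hF : F.map frP = F) :
    chi ψ g (E + F) = chi ψ g E * chi ψ g F := by
  rw [chi, Multiset.map_add]
  exact WeilProof.chi_add p ψ g (fst_invariant hE) (fst_invariant hF)

lemma chi_zero : chi ψ g (0 : Multiset (Kbar p × Kbar p)) = 1 := by
  simp only [chi, WeilProof.chi, Multiset.map_zero, Multiset.sum_zero]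
  rw [← map_zero (algebraMap (ZMod p) (Kbar p)), WeilProof.coord_algebraMap, ψ.map_zero_eq_one]

lemma clsum_zero : clsum A ψ g 0 = 1 := by
  have : cycles A 0 = {0} := by
    ext E
    rw [mem_cycles, Finset.mem_singleton]
    exact ⟨fun h => Multiset.card_eq_zero.1 h.1, fun h => h ▸ ⟨rfl, isCycle_zero A⟩⟩
  rw [clsum, this, Finset.sum_singleton, chi_zero]

lemma clsum_one (d : ℕ) : clsum A (1 : AddChar (ZMod p) ℂ) g d = ((cycles A d).card : ℂ) := by
  simp [clsum, chi, WeilProof.chi]

/-- Every cycle lies in the same number of valid functions. -/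
lemma card_funsThrough (hG : Through A G) {M : ℕ} {E : Multiset (Kbar p × Kbar p)}
    (hE : IsCycle A E) (hM : Multiset.card E + G ≤ edeg A * M) :
    p ^ Multiset.card E * (funsThrough A M E).card = (funsAll A M).card := by
  classical
  convert hG M E hE hM (Valid A M) (fun v w h hv => valid_congr A h hv) using 2
  · rw [funsThrough]
  · rw [funsAll]

open scoped Classical in
lemma mem_funsThrough {M : ℕ} {E : Multiset (Kbar p × Kbar p)} (hE : IsCycle A E)
    {v : idx (edeg A) M → ZMod p} :
    v ∈ funsThrough A M E ↔ v ∈ funsAll A M ∧ E ≤ zeros A (rat v) := by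
  simp only [funsThrough, funsAll, Finset.mem_filter, Finset.mem_univ, true_and]
  exact ⟨fun h => ⟨h.2, (h.2.le_zeros_iff hE).2 h.1⟩, fun h => ⟨(h.1.le_zeros_iff hE).1 h.2, h.1⟩⟩

lemma funsAll_nonempty {M : ℕ} (hM : 1 ≤ M) (hp : (bad A).card < p) : (funsAll A M).Nonempty := by
  classical
  obtain ⟨t, ht⟩ : ∃ t : ZMod p, ∀ P ∈ bad A, aeval P.1 ((X : (ZMod p)[X]) ^ M - C t) ≠ 0 := by
    by_contra hne
    push Not at hne
    have hsub : (univ : Finset (ZMod p)).image (algebraMap (ZMod p) (Kbar p)) ⊆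
        (bad A).image fun P => P.1 ^ M := by
      intro x hx
      obtain ⟨t, -, rfl⟩ := Finset.mem_image.1 hx
      obtain ⟨P, hP, h0⟩ := hne t
      refine Finset.mem_image.2 ⟨P, hP, ?_⟩
      simpa [map_sub, sub_eq_zero] using h0
    have := (Finset.card_le_card hsub).trans Finset.card_image_le
    rw [Finset.card_image_of_injective _ (algebraMap (ZMod p) (Kbar p)).injective, Finset.card_univ,
      ZMod.card] at this
    omega
  set q : (ZMod p)[X] := X ^ M - C t
  have hq : q.natDegree ≤ M := le_of_eq (natDegree_X_pow_sub_C)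
  refine ⟨line q, Finset.mem_filter.2 ⟨mem_univ _, ?_, fun P hP => ?_⟩⟩
  · have hc : q.coeff M = 1 := by simp [q, coeff_X_pow, coeff_C, show M ≠ 0 by omega]
    simpa [hc] using hasTop_line (A := A) hq
  · rw [ev_line (one_le_edeg A) hq]
    exact ht P hP

open scoped Classical in
/-- The pairs, counted over cycles and over complements: `R` is a fixed cycle of further zeros. -/
lemma pairs_eq {M : ℕ} {R : Multiset (Kbar p × Kbar p)} (hR : IsCycle A R) {d d' : ℕ}
    (hdd : d + Multiset.card R + d' = edeg A * M) :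
    ∑ E ∈ cycles A d, chi ψ g E * ((funsThrough A M (E + R)).card : ℂ) =
      ∑ J ∈ cycles A d', ∑ v ∈ funsThrough A M (J + R), chi ψ g (zeros A (rat v) - (J + R)) := by
  classical
  have hswap : ∀ (n : ℕ) (u : Multiset (Kbar p × Kbar p) → (idx (edeg A) M → ZMod p) → ℂ),
      ∑ E ∈ cycles A n, ∑ v ∈ funsThrough A M (E + R), u E v =
        ∑ v ∈ funsAll A M, ∑ E ∈ (cycles A n).filter (fun E => E + R ≤ zeros A (rat v)), u E v := by
    intro n u
    refine Finset.sum_comm' fun E v => ?_
    rw [Finset.mem_filter]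
    constructor
    · rintro ⟨hE, hv⟩
      have := (mem_funsThrough (((mem_cycles A).1 hE).2.add hR)).1 hv
      exact ⟨⟨hE, this.2⟩, this.1⟩
    · rintro ⟨⟨hE, hle⟩, hv⟩
      exact ⟨hE, (mem_funsThrough (((mem_cycles A).1 hE).2.add hR)).2 ⟨hv, hle⟩⟩
  have h1 : ∑ E ∈ cycles A d, chi ψ g E * ((funsThrough A M (E + R)).card : ℂ) =
      ∑ E ∈ cycles A d, ∑ _v ∈ funsThrough A M (E + R), chi ψ g E :=
    Finset.sum_congr rfl fun E _ => by rw [Finset.sum_const, nsmul_eq_mul, mul_comm]
  rw [h1, hswap, hswap]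
  refine Finset.sum_congr rfl fun v hv => ?_
  have hv' : Valid A M v := (Finset.mem_filter.1 hv).2
  exact sum_complement hv'.isCycle_zeros hR (by rw [hv'.card_zeros, hdd]) _

/-- Class numbers of complementary degrees. -/
lemma card_cycles_symm (hG : Through A G) {M : ℕ} (hM : 1 ≤ M) (hp : (bad A).card < p)
    {R : Multiset (Kbar p × Kbar p)} (hR : IsCycle A R) {d d' : ℕ}
    (hdd : d + Multiset.card R + d' = edeg A * M) (hd : G ≤ d) (hd' : G ≤ d') :
    (cycles A d).card * p ^ d' = (cycles A d').card * p ^ d := by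
  classical
  set N := (funsAll A M).card
  have hN : 0 < N := Finset.card_pos.2 (funsAll_nonempty hM hp)
  have h := pairs_eq (A := A) (1 : AddChar (ZMod p) ℂ) (1 : (ZMod p)[X]) hR hdd
  simp only [chi, WeilProof.chi, AddChar.one_apply, one_mul, Finset.sum_const, nsmul_eq_mul,
    mul_one, ← Nat.cast_sum, Nat.cast_inj] at h
  have key : ∀ n n', G ≤ n' → n + Multiset.card R + n' = edeg A * M →
      p ^ (n + Multiset.card R) * ∑ E ∈ cycles A n, (funsThrough A M (E + R)).card =
        (cycles A n).card * N := by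
    intro n n' hn' hnn
    rw [Finset.mul_sum, Finset.card_eq_sum_ones (cycles A n), Finset.sum_mul]
    refine Finset.sum_congr rfl fun E hE => ?_
    obtain ⟨hc, hi⟩ := (mem_cycles A).1 hE
    rw [one_mul, ← hc, ← Multiset.card_add]
    refine card_funsThrough hG (hi.add hR) ?_
    rw [Multiset.card_add, hc]
    omega
  have k1 := key d d' hd' hdd
  have k2 := key d' d hd (by omega)
  rw [h] at k1
  refine Nat.eq_of_mul_eq_mul_left hN ?_
  calc N * ((cycles A d).card * p ^ d') = ((cycles A d).card * N) * p ^ d' := by ring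
    _ = (p ^ (d + Multiset.card R) *
        ∑ E ∈ cycles A d', (funsThrough A M (E + R)).card) * p ^ d' := by rw [k1]
    _ = (p ^ (d' + Multiset.card R) *
        ∑ E ∈ cycles A d', (funsThrough A M (E + R)).card) * p ^ d := by ring
    _ = N * ((cycles A d').card * p ^ d) := by rw [k2]; ring

/-- The class numbers are eventually geometric. -/
lemma card_cycles_succ (hG : Through A G) (hp : (bad A).card < p) {j : ℕ} (hj : G ≤ j) :
    (cycles A (j + 1)).card = p * (cycles A j).card := by
  classical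
  set M := 2 * j + 2 * G + 4
  have he := one_le_edeg A
  have hle : M ≤ edeg A * M := Nat.le_mul_of_pos_left _ he
  set R : Multiset (Kbar p × Kbar p) :=
    {(algebraMap (ZMod p) (Kbar p) A.z, algebraMap (ZMod p) (Kbar p) A.z)}
  have hR : IsCycle A R := by
    refine ⟨?_, fun P hP => ?_⟩
    · simp only [R, Multiset.map_singleton, frP, WeilProof.fr_apply, ← map_pow, ZMod.pow_card]
    · rw [Multiset.mem_singleton.1 hP]
      refine ⟨?_, ?_⟩
      · simp only [Good, aeval_algebraMap_apply, coe_aeval_eq_eval]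
        exact (map_ne_zero_iff _ (algebraMap (ZMod p) (Kbar p)).injective).2 A.simple
      · simp only [OnCurve]
        rw [show eval₂RingHom (algebraMap (ZMod p) (Kbar p)) (algebraMap (ZMod p) (Kbar p) A.z) =
          (algebraMap (ZMod p) (Kbar p)).comp (evalRingHom A.z) by ext a <;> simp, ← Polynomial.map_map,
          eval_map, eval₂_at_apply, A.mem, map_zero]
  set a := edeg A * M - j - 1
  have hcR : Multiset.card R = 1 := Multiset.card_singleton _
  have h1 := card_cycles_symm (A := A) hG (show 1 ≤ M by omega) hp hR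
    (d := a) (d' := j) (by omega) (by omega) hj
  have h2 := card_cycles_symm (A := A) hG (show 1 ≤ M by omega) hp
    (isCycle_zero A) (d := a) (d' := j + 1) (by simp; omega) (by omega) (by omega)
  have hp0 : 0 < p := (Fact.out : p.Prime).pos
  refine Nat.eq_of_mul_eq_mul_right (pow_pos hp0 a) ?_
  rw [← h2, pow_succ, ← mul_assoc, h1]
  ring

/-- A rational polynomial of degree `n` vanishing at the abscissae of the points which are not good. -/
lemma exists_bad_poly : ∃ q : (ZMod p)[X], q.Monic ∧ q.natDegree ≤ A.h.natDegree ^ 3 ∧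
    ∀ P ∈ bad A, aeval P.1 q = 0 := by
  classical
  set S := ((bad A).image Prod.fst)
  have hS : S.val.map (WeilProof.fr p) = S.val := by
    refine Multiset.eq_of_le_of_card_le ((Multiset.le_iff_subset
      (S.nodup.map (WeilProof.fr_injective p))).2 fun x hx => ?_) (Multiset.card_map _ _).ge
    obtain ⟨y, hy, rfl⟩ := Multiset.mem_map.1 hx
    obtain ⟨P, hP, rfl⟩ := Finset.mem_image.1 hy
    exact Finset.mem_image.2 ⟨frP P, (frP_mem_bad A).2 hP, rfl⟩
  obtain ⟨v, -, hv⟩ := Finset.mem_image.1 ((WeilProof.mem_mset p).2 ⟨(rfl : Multiset.card S.val = Multiset.card S.val), hS⟩)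
  set q : (ZMod p)[X] :=
    X ^ Multiset.card S.val + ∑ i : Fin (Multiset.card S.val), C (v i) * X ^ (i : ℕ)
  have hm : q.Monic := monic_X_pow_add (degree_sum_fin_lt v)
  obtain ⟨hc, hprod⟩ := WeilProof.rootsOf_spec p v
  refine ⟨q, hm, ?_, fun P hP => ?_⟩
  · have h : (q.map (algebraMap (ZMod p) (Kbar p))).natDegree = Multiset.card S.val := by
      rw [← hprod, natDegree_multiset_prod_X_sub_C_eq_card, hc]
    rw [natDegree_map] at h
    rw [h, Finset.card_val]
    exact Finset.card_image_le.trans (card_bad_le A)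
  · have h : P.1 ∈ WeilProof.rootsOf p v := by
      rw [hv]; exact Finset.mem_image_of_mem Prod.fst hP
    rw [aeval_def, ← eval_map]
    exact (mem_roots (hm.map _).ne_zero).1 h

/-- A nontrivial character kills the class sums of large degree. -/
theorem clsum_eq_zero (hG : Through A G) (hψ : ψ ≠ 1) {d : ℕ} (hd1 : 1 ≤ g.natDegree)
    (hgp : g.natDegree < p) (hp : A.h.natDegree ^ 3 < p)
    (hd : 2 * G + A.h.natDegree * (A.h.natDegree ^ 3 + g.natDegree + 2) ≤ d) :
    clsum A ψ g d = 0 := by
  classical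
  set k := A.h.natDegree
  set e := edeg A
  set dg := g.natDegree
  have he : 1 ≤ e := one_le_edeg A
  have hek : e ≤ k := edeg_le A
  have hkp : k < p := A.deg_lt
  set M := (d + G) / e + 1
  have hM1 : d + G ≤ e * M := by
    have := Nat.div_add_mod (d + G) e
    have := Nat.mod_lt (d + G) he
    simp only [M, Nat.mul_add, mul_one]
    omega
  have hM2 : e * M ≤ d + G + e := by
    have := Nat.mul_div_le (d + G) e
    simp only [M, Nat.mul_add, mul_one]
    omega
  have hbig : k ^ 3 + dg + 2 ≤ M := by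
    by_contra hlt
    have h1 := Nat.mul_le_mul hek (Nat.le_of_lt_succ (not_le.1 hlt))
    have h2 : k * (k ^ 3 + dg + 2) = k * (k ^ 3 + dg + 1) + k := by ring
    have := A.two_le
    omega
  set d' := e * M - d
  have hshiftdeg : d' + G ≤ e * (M - dg) := by
    have h1 : e * dg ≤ k * dg := Nat.mul_le_mul_right _ hek
    rw [Nat.mul_sub]
    have h2 : k * (k ^ 3 + dg + 2) = k * k ^ 3 + k * dg + k * 2 := by ring
    omega
  obtain ⟨b, hb⟩ := AddChar.ne_one_iff.1 hψ
  set u : ZMod p := g.coeff dg * ((dg : ZMod p) * (e : ZMod p))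
  have hu : u ≠ 0 := by
    refine mul_ne_zero ?_ (mul_ne_zero ?_ ?_)
    · exact leadingCoeff_ne_zero.2 (fun h => by simp [dg, h] at hd1)
    · rw [Ne, ZMod.natCast_eq_zero_iff]
      exact fun h => absurd (Nat.le_of_dvd (by omega) h) (by omega)
    · rw [Ne, ZMod.natCast_eq_zero_iff]
      exact fun h => absurd (Nat.le_of_dvd (by omega) h) (by omega)
  set c : ZMod p := -(b / u)
  have hzero : ∀ J ∈ cycles A d',
      ∑ v ∈ funsThrough A M (J + 0), chi ψ g (zeros A (rat v) - (J + 0)) = 0 := by
    intro J hJ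
    obtain ⟨hJc, hJi⟩ := (mem_cycles A).1 hJ
    simp only [add_zero]
    obtain ⟨q₀, hq₀m, hq₀d', hq₀⟩ := exists_bad_poly (A := A)
    have hq₀d : q₀.natDegree ≤ k ^ 3 := hq₀d'
    set q : (ZMod p)[X] := C c * (X ^ (M - dg - q₀.natDegree) * q₀)
    have hqd : q.natDegree ≤ M - dg := by
      refine (natDegree_C_mul_le _ _).trans ((natDegree_mul_le).trans ?_)
      rw [natDegree_X_pow]; omega
    have hqc : q.coeff (M - dg) = c := by
      rw [coeff_C_mul, coeff_X_pow_mul', if_pos (Nat.sub_le _ _),
        show M - dg - (M - dg - q₀.natDegree) = q₀.natDegree by omega, coeff_natDegree,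
        hq₀m.leadingCoeff, mul_one]
    set u₀ : idx e (M - dg) → ZMod p := line q
    have hcount := hG (M - dg) J hJi (hJc.symm ▸ hshiftdeg)
      (fun w => SameBoundary A (M - dg) (rat w) (rat u₀))
      (fun v w h hv => ⟨fun j hj => (h.1 j hj).symm.trans (hv.1 j hj),
        fun P hP => (h.2 P hP).symm.trans (hv.2 P hP)⟩)
    obtain ⟨w, hw⟩ : ∃ w : idx e (M - dg) → ZMod p,
        rat w ∈ Wsp A (M - dg) J ∅ ∧ SameBoundary A (M - dg) (rat w) (rat u₀) := by
      by_contra hne
      push Not at hne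
      rw [Finset.filter_eq_empty_iff.2 fun v _ => fun h => hne v h.1 h.2, Finset.card_empty,
        mul_zero] at hcount
      exact absurd hcount (ne_of_lt (Finset.card_pos.2 ⟨u₀, Finset.mem_filter.2
        ⟨mem_univ _, fun _ _ => rfl, fun _ _ => rfl⟩⟩))
    set s : idx e M → ZMod p := fun ij => if h : ij.1 ∈ idx e (M - dg) then w ⟨ij.1, h⟩ else 0
    have hs : rat s = rat w := by
      ext j i
      rw [rat_coeff, rat_coeff]
      by_cases h : (i, j) ∈ idx e (M - dg)
      · have h' : (i, j) ∈ idx e M := mem_idx.2 ⟨(mem_idx.1 h).1, by have := (mem_idx.1 h).2; omega⟩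
        rw [dif_pos h, dif_pos h']
        simp [s, h]
      · rw [dif_neg h]
        split_ifs
        · simp [s, h]
        · rfl
    have hwtop : HasTop A (M - dg) (rat w) (algebraMap (ZMod p) (Kbar p) c) := by
      have h0 := hasTop_line (A := A) hqd
      rw [hqc] at h0
      refine ⟨?_, fun j hj hje => (hw.2.1 j hje).trans (h0.2 j hj hje)⟩
      have h1 := hw.2.1 0 he
      rw [Nat.sub_zero] at h1
      exact h1.trans h0.1
    have hwbad : ∀ P ∈ bad A, ev P (rat w) = 0 := by
      intro P hP
      rw [hw.2.2 P hP, ev_line he hqd, map_mul, map_mul, hq₀ P hP, mul_zero, mul_zero]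
    have hsame : ∀ v : idx e M → ZMod p, SameBoundary A M (rat v) (rat (v + s)) := by
      intro v
      refine ⟨fun j hj => ?_, fun P hP => ?_⟩
      · rw [rat_add, coeff_add, coeff_add, hs,
          mem_LSpace.1 (rat_mem w) (M - j) j (Or.inr (by omega)), add_zero]
      · rw [rat_add, map_add, hs, hwbad P hP, add_zero]
    have hmemW : ∀ v : idx e M → ZMod p, (rat (v + s) ∈ Wsp A M J ∅ ↔ rat v ∈ Wsp A M J ∅) := by
      intro v
      rw [rat_add, Submodule.add_mem_iff_left]
      rw [hs, mem_Wsp0]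
      exact ⟨hs ▸ rat_mem s, ((mem_Wsp0 A).1 hw.1).2⟩
    have hvalid : ∀ v : idx e M → ZMod p, Valid A M (v + s) ↔ Valid A M v := fun v =>
      ⟨valid_congr A ⟨fun j hj => ((hsame v).1 j hj).symm, fun P hP => ((hsame v).2 P hP).symm⟩,
        valid_congr A (hsame v)⟩
    have hchi : ∀ v ∈ funsThrough A M J, chi ψ g (zeros A (rat (v + s)) - J) =
        ψ b * chi ψ g (zeros A (rat v) - J) := by
      intro v hv
      obtain ⟨hvW, hvv⟩ := (Finset.mem_filter.1 hv).2
      have hvv' := (hvalid v).2 hvv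
      have hle := (hvv.le_zeros_iff hJi).2 hvW
      have hle' := (hvv'.le_zeros_iff hJi).2 ((hmemW v).2 hvW)
      have hne : chi ψ g J ≠ 0 := by
        intro h
        have := AddChar.norm_apply ψ (WeilProof.coord p
          ((J.map Prod.fst).map fun z => (WeilProof.fK p g).eval z).sum)
        rw [show ψ _ = chi ψ g J from rfl, h, norm_zero] at this
        exact zero_ne_one this
      have hadd : ∀ D, IsCycle A D → J ≤ D → chi ψ g (D - J) * chi ψ g J = chi ψ g D := by
        intro D hD hJD
        rw [← chi_add ψ g (hD.sub hJi hJD).1 hJi.1, tsub_add_cancel_of_le hJD]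
      refine mul_right_cancel₀ hne ?_
      rw [mul_assoc, hadd _ hvv'.isCycle_zeros hle', hadd _ hvv.isCycle_zeros hle]
      have hf' : rat v + rat w ∈ LSpace p e M := hs ▸ rat_add v s ▸ rat_mem (v + s)
      have ht' : HasTop A M (rat v + rat w) 1 := hs ▸ rat_add v s ▸ hvv'.1
      have key := sum_roots_shift g rfl hd1 (by omega) (rat_mem v) hvv.1 (rat_mem w) hwtop ht'
      simp only [chi, WeilProof.chi]
      rw [(map_fst_zeros_le (rat_mem _) hvv'.ne_zero).2 hvv'.2,
        (map_fst_zeros_le (rat_mem _) hvv.ne_zero).2 hvv.2, rat_add, hs, key]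
      have hfix := WeilProof.fixed_sum p g (fst_invariant hvv.isCycle_zeros.1)
      rw [(map_fst_zeros_le (rat_mem _) hvv.ne_zero).2 hvv.2] at hfix
      have hval : (WeilProof.fK p g).coeff dg * ((dg : Kbar p) * ((e : Kbar p) *
          algebraMap (ZMod p) (Kbar p) c)) = algebraMap (ZMod p) (Kbar p) (-b) := by
        rw [WeilProof.fK, coeff_map, ← map_natCast (algebraMap (ZMod p) (Kbar p)) dg,
          ← map_natCast (algebraMap (ZMod p) (Kbar p)) e, ← map_mul, ← map_mul, ← map_mul]
        congr 1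
        rw [← mul_assoc (dg : ZMod p), ← mul_assoc]
        show u * c = -b
        rw [mul_neg, mul_div_cancel₀ _ hu]
      rw [show (WeilProof.fK p g).coeff dg * ((dg : Kbar p) * ((edeg A : Kbar p) *
        algebraMap (ZMod p) (Kbar p) c)) = algebraMap (ZMod p) (Kbar p) (-b) from hval, map_neg,
        sub_neg_eq_add, WeilProof.coord_add p hfix
          (by rw [WeilProof.fr_apply, ← map_pow, ZMod.pow_card]),
        WeilProof.coord_algebraMap, ψ.map_add_eq_mul, mul_comm]
    set T := ∑ v ∈ funsThrough A M J, chi ψ g (zeros A (rat v) - J)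
    have hT : T = ψ b * T := by
      refine Eq.trans ?_ ((Finset.sum_congr rfl hchi).trans (Finset.mul_sum _ _ _).symm)
      refine Finset.sum_bij' (fun v _ => v - s) (fun v _ => v + s) ?_ ?_ ?_ ?_ ?_
      · intro v hv
        obtain ⟨h1, h2⟩ := (Finset.mem_filter.1 hv).2
        refine Finset.mem_filter.2 ⟨mem_univ _, ?_, ?_⟩
        · rw [← hmemW, sub_add_cancel]; exact h1
        · rw [← hvalid, sub_add_cancel]; exact h2
      · intro v hv
        obtain ⟨h1, h2⟩ := (Finset.mem_filter.1 hv).2
        exact Finset.mem_filter.2 ⟨mem_univ _, (hmemW v).2 h1, (hvalid v).2 h2⟩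
      · intro v _; exact sub_add_cancel v s
      · intro v _; exact add_sub_cancel_right v s
      · intro v _; rw [sub_add_cancel]
    have h0 : (1 - ψ b) * T = 0 := by rw [sub_mul, one_mul]; exact sub_eq_zero.2 hT
    exact (mul_eq_zero.1 h0).resolve_left (sub_ne_zero.2 (Ne.symm hb))
  have hEM : edeg A * M = e * M := rfl
  have h := pairs_eq (A := A) ψ g (M := M) (isCycle_zero A) (d := d) (d' := d')
    (by rw [Multiset.card_zero, add_zero, hEM]; omega)
  rw [Finset.sum_eq_zero hzero] at h
  have hN : (funsAll A M).Nonempty := funsAll_nonempty (by omega) ((card_bad_le A).trans_lt hp)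
  have hcast : ∀ E ∈ cycles A d, chi ψ g E * ((funsThrough A M (E + 0)).card : ℂ) * (p : ℂ) ^ d =
      chi ψ g E * ((funsAll A M).card : ℂ) := by
    intro E hE
    obtain ⟨hc, hi⟩ := (mem_cycles A).1 hE
    rw [add_zero, mul_assoc, ← Nat.cast_pow, ← Nat.cast_mul,
      mul_comm (funsThrough A M E).card, ← hc, card_funsThrough hG hi (by omega)]
  have h2 := congrArg (fun z => z * (p : ℂ) ^ d) h
  simp only [Finset.sum_mul, zero_mul] at h2
  rw [Finset.sum_congr rfl hcast, ← Finset.sum_mul] at h2
  exact (mul_eq_zero.1 h2).resolve_right (Nat.cast_ne_zero.2 hN.card_pos.ne')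

end

end Vale.Agent.P042.Curve
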