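import Vale.Agent.P042.Curve.Space
import Vale.Agent.P042.Curve.Orbit
import Vale.Agent.P042.Curve.Series.Shift

/-!
Cycles of good points and rational functions without zeros at infinity or at the points which are not
good: the zeros of such a function of degree `M` form a cycle of degree `e M`.
-/

open Finset Polynomial

namespace Vale.Agent.P042.Curve

open Vale.Agent.P042.Upper

noncomputable section

variable {p : ℕ} [Fact p.Prime] (A : Comp p)

/-- A good point of the component. -/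
def Dom (P : Kbar p × Kbar p) : Prop := Good A P ∧ OnCurve A P

lemma frP_iterate (k : ℕ) (P : Kbar p × Kbar p) :
    frP^[k] P = ((WeilProof.fr p)^[k] P.1, (WeilProof.fr p)^[k] P.2) := by
  induction k with
  | zero => rfl
  | succ k ih => simp only [Function.iterate_succ_apply', ih]; rfl

lemma dom_frP (P : Kbar p × Kbar p) : Dom A P → Dom A (frP P) :=
  fun h => ⟨(good_frP A P).2 h.1, (onCurve_frP A P).2 h.2⟩

lemma mem_pts {k : ℕ} (hk : 1 ≤ k) (P : Kbar p × Kbar p) :
    P ∈ pts A k ↔ Dom A P ∧ frP^[k] P = P := by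
  classical
  rw [pts, Finset.mem_filter, Finset.mem_product, WeilProof.mem_fixk p hk, WeilProof.mem_fixk p hk,
    frP_iterate, Prod.ext_iff, Dom]
  exact and_comm

/-- The cycles of degree `d`. -/
def cycles (d : ℕ) : Finset (Multiset (Kbar p × Kbar p)) := Orbit.mset frP (pts A) d

lemma mem_cycles {d : ℕ} {E : Multiset (Kbar p × Kbar p)} :
    E ∈ cycles A d ↔ Multiset.card E = d ∧ IsCycle A E :=
  (Orbit.mem_mset (Dom A) frP_injective (dom_frP A) (fun _ hk P => mem_pts A hk P)).trans Iff.rfl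

lemma isCycle_zero : IsCycle A 0 := ⟨rfl, fun P hP => absurd hP (Multiset.notMem_zero P)⟩

variable {A}

lemma IsCycle.add {E F : Multiset (Kbar p × Kbar p)} (hE : IsCycle A E) (hF : IsCycle A F) :
    IsCycle A (E + F) :=
  ⟨by rw [Multiset.map_add, hE.1, hF.1], fun P hP => (Multiset.mem_add.1 hP).elim (hE.2 P) (hF.2 P)⟩

open scoped Classical in
lemma IsCycle.sub {E F : Multiset (Kbar p × Kbar p)} (hE : IsCycle A E) (hF : IsCycle A F)
    (hle : F ≤ E) : IsCycle A (E - F) := by
  refine ⟨?_, fun P hP => hE.2 P (Multiset.mem_of_le (Multiset.sub_le_self _ _) hP)⟩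
  have h := congrArg (Multiset.map (frP (p := p))) (add_tsub_cancel_of_le hle)
  rw [Multiset.map_add, hF.1, hE.1] at h
  conv_rhs => rw [← h, add_tsub_cancel_left]

open scoped Classical in
/-- Exchanging a part of a cycle for its complement. -/
lemma sum_complement {α : Type*} [AddCommMonoid α] {D R : Multiset (Kbar p × Kbar p)}
    (hD : IsCycle A D) (hR : IsCycle A R) {d d' : ℕ}
    (hd : d + Multiset.card R + d' = Multiset.card D) (u : Multiset (Kbar p × Kbar p) → α) :
    ∑ E ∈ (cycles A d).filter (fun E => E + R ≤ D), u E =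
      ∑ J ∈ (cycles A d').filter (fun J => J + R ≤ D), u (D - (J + R)) := by
  refine Finset.sum_bij' (fun E _ => D - (E + R)) (fun J _ => D - (J + R)) ?_ ?_ ?_ ?_ ?_
  · intro E hE
    obtain ⟨hE1, hle⟩ := Finset.mem_filter.1 hE
    obtain ⟨hEc, hEi⟩ := (mem_cycles A).1 hE1
    refine Finset.mem_filter.2 ⟨(mem_cycles A).2 ⟨?_, hD.sub (hEi.add hR) hle⟩, ?_⟩
    · rw [Multiset.card_sub hle, Multiset.card_add, hEc]; omega
    · calc D - (E + R) + R ≤ D - (E + R) + (E + R) := add_le_add le_rfl (Multiset.le_add_left _ _)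
        _ = D := tsub_add_cancel_of_le hle
  · intro J hJ
    obtain ⟨hJ1, hle⟩ := Finset.mem_filter.1 hJ
    obtain ⟨hJc, hJi⟩ := (mem_cycles A).1 hJ1
    refine Finset.mem_filter.2 ⟨(mem_cycles A).2 ⟨?_, hD.sub (hJi.add hR) hle⟩, ?_⟩
    · rw [Multiset.card_sub hle, Multiset.card_add, hJc]; omega
    · calc D - (J + R) + R ≤ D - (J + R) + (J + R) := add_le_add le_rfl (Multiset.le_add_left _ _)
        _ = D := tsub_add_cancel_of_le hle
  all_goals
    intro E hE
    have hle := (Finset.mem_filter.1 hE).2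
    have h1 : D - (E + R) + R = D - E := by
      rw [← tsub_tsub, tsub_add_cancel_of_le]
      exact le_tsub_of_add_le_left hle
    simp only [h1]
    rw [tsub_tsub_cancel_of_le (le_trans (Multiset.le_add_right _ _) hle)]

variable (A) {M : ℕ}

lemma rat_coeff {e : ℕ} (v : idx e M → ZMod p) (i j : ℕ) :
    ((rat v).coeff j).coeff i =
      if h : (i, j) ∈ idx e M then algebraMap (ZMod p) (Kbar p) (v ⟨(i, j), h⟩) else 0 := by
  classical
  simp only [rat, poly, finsetSum_coeff, coeff_mono]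
  split_ifs with h
  · rw [Finset.sum_eq_single (⟨(i, j), h⟩ : idx e M)]
    · simp
    · intro ij _ hne
      rw [if_neg]
      rintro ⟨h1, h2⟩
      exact hne (Subtype.ext (Prod.ext h2 h1))
    · simp
  · refine Finset.sum_eq_zero fun ij _ => ?_
    rw [if_neg]
    rintro ⟨h1, h2⟩
    exact h ((Prod.ext h2 h1 : ij.1 = (i, j)) ▸ ij.2)

lemma rat_mem {e : ℕ} (v : idx e M → ZMod p) : rat v ∈ LSpace p e M := by
  refine mem_LSpace.2 fun i j hij => ?_
  rw [rat_coeff, dif_neg fun h => ?_]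
  have := mem_idx.1 h
  simp only at this
  omega

lemma rat_add {e : ℕ} (v w : idx e M → ZMod p) : rat (v + w) = rat v + rat w := by
  simp [rat, poly, Finset.sum_add_distrib]

lemma rat_fr {e : ℕ} (v : idx e M → ZMod p) :
    (rat v).map (mapRingHom (WeilProof.fr p)) = rat v := by
  ext j i
  rw [coeff_map, coe_mapRingHom, coeff_map, rat_coeff]
  split_ifs
  · rw [WeilProof.fr_apply, ← map_pow, ZMod.pow_card]
  · exact map_zero _

open scoped Classical in
lemma mem_Wsp0 {E : Multiset (Kbar p × Kbar p)} {f : (Kbar p)[X][X]} :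
    f ∈ Wsp A M E ∅ ↔ f ∈ LSpace p (edeg A) M ∧ ∀ P, ∀ i < E.count P, jet A P i f = 0 := by
  simp only [Wsp, Submodule.mem_inf, Submodule.mem_iInf, LinearMap.mem_ker]
  constructor
  · rintro ⟨⟨h1, h2⟩, -⟩
    exact ⟨h1, fun P i hi => h2 P ⟨i, hi⟩⟩
  · rintro ⟨h1, h2⟩
    exact ⟨⟨h1, fun P i => h2 P i i.2⟩, fun P => absurd P.2 (Finset.notMem_empty _)⟩

/-- Top form `x ^ M`, no zero at the points which are not good. -/
def Valid (M : ℕ) (v : idx (edeg A) M → ZMod p) : Prop :=
  HasTop A M (rat v) 1 ∧ ∀ P ∈ bad A, ev P (rat v) ≠ 0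

lemma valid_congr {v w : idx (edeg A) M → ZMod p} (h : SameBoundary A M (rat v) (rat w))
    (hv : Valid A M v) : Valid A M w := by
  refine ⟨⟨?_, fun j hj hje => (h.1 j hje).symm.trans (hv.1.2 j hj hje)⟩,
    fun P hP => h.2 P hP ▸ hv.2 P hP⟩
  have h1 := h.1 0 (one_le_edeg A)
  rw [Nat.sub_zero] at h1
  exact h1.symm.trans hv.1.1

variable {A} {v : idx (edeg A) M → ZMod p}

lemma Valid.ne_zero (hv : Valid A M v) : rat v ≠ 0 := by
  intro h
  have h1 := hv.1.1
  rw [h] at h1
  simp at h1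

lemma Valid.card_zeros (hv : Valid A M v) : Multiset.card (zeros A (rat v)) = edeg A * M :=
  card_zeros_eq (rat_mem v) hv.ne_zero hv.2 (by rw [(Nm_top (rat_mem v) hv.1).1]; exact one_ne_zero)

open scoped Classical in
lemma Valid.isCycle_zeros (hv : Valid A M v) : IsCycle A (zeros A (rat v)) := by
  have hg : ∀ P ∈ zeros A (rat v), Good A P ∧ OnCurve A P :=
    fun P hP => zeros_good (rat_mem v) hv.ne_zero hP
  refine ⟨Multiset.eq_of_le_of_card_le ((le_zeros_iff (rat_mem v) hv.ne_zero ?_).2 ?_)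
    (Multiset.card_map _ _).ge, hg⟩
  · intro P hP
    obtain ⟨Q, hQ, rfl⟩ := Multiset.mem_map.1 hP
    exact dom_frP A Q (hg Q hQ)
  · intro P i hi
    obtain ⟨Q, hQ, rfl⟩ := Multiset.mem_map.1 (Multiset.count_pos.1 (lt_of_le_of_lt (Nat.zero_le i) hi))
    rw [Multiset.count_map_eq_count' _ _ frP_injective] at hi
    rw [← rat_fr v, jet_frP A (hg Q hQ).1 (hg Q hQ).2,
      (le_zeros_iff (rat_mem v) hv.ne_zero hg).1 le_rfl Q i hi, map_zero]

open scoped Classical in
lemma Valid.le_zeros_iff (hv : Valid A M v) {E : Multiset (Kbar p × Kbar p)} (hE : IsCycle A E) :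
    E ≤ zeros A (rat v) ↔ rat v ∈ Wsp A M E ∅ := by
  rw [mem_Wsp0, Curve.le_zeros_iff (rat_mem v) hv.ne_zero hE.2]
  exact ⟨fun h => ⟨rat_mem v, h⟩, fun h => h.2⟩

/-- The coefficients of a polynomial in `x` alone. -/
def line {e M : ℕ} (q : (ZMod p)[X]) : idx e M → ZMod p :=
  fun ij => if ij.1.2 = 0 then q.coeff ij.1.1 else 0

lemma rat_line {e : ℕ} (he : 1 ≤ e) {q : (ZMod p)[X]} (hq : q.natDegree ≤ M) :
    rat (line (e := e) (M := M) q) = C (q.map (algebraMap (ZMod p) (Kbar p))) := by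
  ext j i
  rw [rat_coeff, coeff_C]
  by_cases hj : j = 0
  · subst hj
    rw [if_pos rfl, coeff_map]
    split_ifs with h
    · simp [line]
    · rw [coeff_eq_zero_of_natDegree_lt (by
        by_contra hlt
        exact h (mem_idx.2 ⟨he, by simp only; omega⟩)), map_zero]
  · rw [if_neg hj, coeff_zero]
    split_ifs
    · simp [line, hj]
    · rfl

lemma ev_line {e : ℕ} (he : 1 ≤ e) {q : (ZMod p)[X]} (hq : q.natDegree ≤ M) (P : Kbar p × Kbar p) :
    ev P (rat (line (e := e) (M := M) q)) = aeval P.1 q := by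
  rw [rat_line he hq]
  simp [ev, eval_map, aeval_def]

lemma hasTop_line {q : (ZMod p)[X]} (hq : q.natDegree ≤ M) :
    HasTop A M (rat (line (e := edeg A) (M := M) q)) (algebraMap (ZMod p) (Kbar p) (q.coeff M)) := by
  rw [rat_line (one_le_edeg A) hq]
  refine ⟨by rw [coeff_C_zero, coeff_map], fun j hj _ => ?_⟩
  rw [coeff_C, if_neg (by omega), coeff_zero]

end

end Vale.Agent.P042.Curve
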